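import Vale.Agent.P144E.Defs
import Vale.Agent.P144D.B.Dec
import Vale.Agent.P144D.B.Max

/-!
Reentrant corners: Hölder decay of a pair at a thick outer part, by a Gaussian barrier.
-/

namespace Vale.Agent.P144Z

open Finset

namespace An1

theorem exp_add_exp (y : ℝ) : 2 + y ^ 2 ≤ Real.exp y + Real.exp (-y) := by
  have h1 : |y / 2| ≤ |Real.sinh (y / 2)| := by
    rw [Real.abs_sinh]
    exact Real.self_le_sinh_iff.2 (abs_nonneg _)
  have h2 := sq_le_sq.2 h1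
  have h3 := Real.cosh_two_mul (y / 2)
  rw [Real.cosh_sq, show 2 * (y / 2) = y by ring, Real.cosh_eq] at h3
  nlinarith

/-- The Gaussian. -/
noncomputable def gs (μ : ℝ) (x v : ℤ × ℤ) : ℝ :=
  Real.exp (-(μ * (((v.1 : ℝ) - x.1) ^ 2 + ((v.2 : ℝ) - x.2) ^ 2)))

theorem gs_pos (μ : ℝ) (x v : ℤ × ℤ) : 0 < gs μ x v := Real.exp_pos _

theorem gs_le_one {μ : ℝ} (h : 0 ≤ μ) (x v : ℤ × ℤ) : gs μ x v ≤ 1 :=
  Real.exp_le_one_iff.2 (neg_nonpos.2 (by positivity))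

theorem gs_sub {μ : ℝ} (h0 : 0 ≤ μ) (h1 : μ ≤ 1 / 2) {x v : ℤ × ℤ}
    (h : 2 ≤ μ * (((v.1 : ℝ) - x.1) ^ 2 + ((v.2 : ℝ) - x.2) ^ 2)) :
    0 ≤ ∑ a, (gs μ x (v + st4 a) - gs μ x v) := by
  have e : ∑ a, (gs μ x (v + st4 a) - gs μ x v) = gs μ x v * (Real.exp (-μ) *
      (Real.exp (2 * μ * (v.1 - x.1)) + Real.exp (-(2 * μ * (v.1 - x.1))) +
        (Real.exp (2 * μ * (v.2 - x.2)) + Real.exp (-(2 * μ * (v.2 - x.2))))) - 4) := by
    have k : ∀ (a : Fin 4) (y : ℝ), -(μ * ((((v + st4 a).1 : ℝ) - x.1) ^ 2 +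
        (((v + st4 a).2 : ℝ) - x.2) ^ 2)) =
        -(μ * (((v.1 : ℝ) - x.1) ^ 2 + ((v.2 : ℝ) - x.2) ^ 2)) + (-μ + y) →
        gs μ x (v + st4 a) = gs μ x v * (Real.exp (-μ) * Real.exp y) := fun a y hy => by
      rw [gs, hy, Real.exp_add, Real.exp_add, gs]
    rw [Fin.sum_univ_four, k 0 (-(2 * μ * (v.1 - x.1))) (by simp [st4]; ring),
      k 1 (-(2 * μ * (v.2 - x.2))) (by simp [st4]; ring),
      k 2 (2 * μ * (v.1 - x.1)) (by simp [st4]; ring),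
      k 3 (2 * μ * (v.2 - x.2)) (by simp [st4]; ring)]
    ring
  rw [e]
  refine mul_nonneg (gs_pos _ _ _).le (sub_nonneg.2 ?_)
  have h2 := exp_add_exp (2 * μ * (v.1 - x.1))
  have h3 := exp_add_exp (2 * μ * (v.2 - x.2))
  have h4 : 1 - μ ≤ Real.exp (-μ) := by linarith [Real.add_one_le_exp (-μ)]
  have h5 : 4 + 8 * μ ≤ Real.exp (2 * μ * (v.1 - x.1)) + Real.exp (-(2 * μ * (v.1 - x.1))) +
      (Real.exp (2 * μ * (v.2 - x.2)) + Real.exp (-(2 * μ * (v.2 - x.2)))) := by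
    nlinarith [mul_le_mul_of_nonneg_left h h0]
  refine le_trans ?_ (mul_le_mul h4 h5 (by positivity) (Real.exp_pos _).le)
  nlinarith

theorem dist_ge {v x : ℤ × ℤ} {n : ℕ} (h : n ≤ zd v x) :
    (n : ℝ) ^ 2 ≤ ((v.1 : ℝ) - x.1) ^ 2 + ((v.2 : ℝ) - x.2) ^ 2 := by
  have h1 : n ≤ zd (v - x) 0 := by simpa [zd] using h
  have h0 : (0 : ℝ) ≤ n := Nat.cast_nonneg n
  rcases PairDecay.coord' h1 with h2 | h2
  · have h3 := pow_le_pow_left₀ h0 h2 2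
    rw [sq_abs] at h3
    simp only [Prod.fst_sub, Int.cast_sub] at h3
    linarith [sq_nonneg ((v.2 : ℝ) - x.2)]
  · have h3 := pow_le_pow_left₀ h0 h2 2
    rw [sq_abs] at h3
    simp only [Prod.snd_sub, Int.cast_sub] at h3
    linarith [sq_nonneg ((v.1 : ℝ) - x.1)]

theorem dist_le {v x : ℤ × ℤ} {n : ℕ} (h : zd v x ≤ n) :
    ((v.1 : ℝ) - x.1) ^ 2 + ((v.2 : ℝ) - x.2) ^ 2 ≤ 2 * (n : ℝ) ^ 2 := by
  have h1 : zd (v - x) 0 ≤ n := by simpa [zd] using h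
  obtain ⟨h2, h3⟩ := PairDecay.coord h1
  have h4 := pow_le_pow_left₀ (abs_nonneg _) h2 2
  have h5 := pow_le_pow_left₀ (abs_nonneg _) h3 2
  rw [sq_abs] at h4 h5
  simp only [Prod.fst_sub, Prod.snd_sub, Int.cast_sub] at h4 h5
  linarith

/-- The contraction factor. -/
noncomputable def th (N : ℕ) : ℝ :=
  1 - (Real.exp (-(4 * ((N : ℝ) + 1) ^ 2)) - Real.exp (-(8 * ((N : ℝ) + 1) ^ 2))) / 4

theorem th_pos (N : ℕ) : 0 < th N := by
  have h1 : Real.exp (-(4 * ((N : ℝ) + 1) ^ 2)) ≤ 1 :=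
    Real.exp_le_one_iff.2 (neg_nonpos.2 (by positivity))
  have h2 := Real.exp_pos (-(8 * ((N : ℝ) + 1) ^ 2))
  rw [th]
  linarith

theorem th_lt (N : ℕ) : th N < 1 := by
  have h0 : (0 : ℝ) < ((N : ℝ) + 1) ^ 2 := by positivity
  have h1 : Real.exp (-(8 * ((N : ℝ) + 1) ^ 2)) < Real.exp (-(4 * ((N : ℝ) + 1) ^ 2)) :=
    Real.exp_lt_exp.2 (by linarith)
  rw [th]
  linarith

/-- The inequality satisfied by `u` and by `-w`. -/
def Sub (ρ : ℕ) (g : ℤ × ℤ → ℝ) : Prop :=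
  ∀ v, zd v 0 + 1 ≤ ρ → 0 < g v → ∃ G : Fin 4 → ℝ, 0 ≤ ∑ a, G a ∧
    ∀ a, G a ≤ g (v + st4 a) - g v ∨ G a ≤ -(1 / 2) * g v

/-- One step. -/
theorem step {N ρ σ : ℕ} {g : ℤ × ℤ → ℝ} {S : ℝ} (hg : Sub ρ g) (hσ : 2 ≤ σ)
    (hρ : (3 * N + 2) * σ ≤ ρ) (hS0 : 0 ≤ S) {x : ℤ × ℤ} (hx : zd x 0 ≤ N * σ)
    (hout : ∀ v, zd v 0 + 1 ≤ ρ → zd v x < σ → g v ≤ 0)
    (hS : ∀ v, zd v 0 ≤ (3 * N + 2) * σ → g v ≤ S) : ∀ v, zd v 0 ≤ σ → g v ≤ th N * S := by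
  have hσ' : (2 : ℝ) ≤ σ := by exact_mod_cast hσ
  have hσ2 : (0 : ℝ) < (σ : ℝ) ^ 2 := by positivity
  obtain ⟨μ, hμ⟩ : ∃ μ : ℝ, μ * (σ : ℝ) ^ 2 = 2 := ⟨2 / (σ : ℝ) ^ 2, div_mul_cancel₀ _ hσ2.ne'⟩
  have hμ0 : 0 ≤ μ := by nlinarith
  have hμ1 : μ ≤ 1 / 2 := by
    have := mul_le_mul_of_nonneg_left (show (4 : ℝ) ≤ (σ : ℝ) ^ 2 by nlinarith) hμ0
    linarith
  obtain ⟨e, he⟩ : ∃ e, e = Real.exp (-(8 * ((N : ℝ) + 1) ^ 2)) := ⟨_, rfl⟩
  have he0 : 0 < e := he ▸ Real.exp_pos _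
  let B : ℤ × ℤ → ℝ := fun v => S * (1 - (gs μ x v - e) / 4)
  have hB : ∀ v, 3 / 4 * S ≤ B v := fun v => by
    have := gs_le_one hμ0 x v
    simp only [B]
    nlinarith
  have key := maxp_box ((3 * N + 2) * σ) (fun v => g v - B v) (fun v hv => by
    have h1 : 2 * (N + 1) * σ ≤ zd v x := by
      have h2 := B1a1.zd_add_le x (v - x)
      have h3 : zd (v - x) 0 = zd v x := by simp [zd]
      rw [add_sub_cancel, hv, h3] at h2
      nlinarith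
    have h2 := mul_le_mul_of_nonneg_left (dist_ge h1) hμ0
    have h3 : gs μ x v ≤ e := by
      rw [he]
      refine Real.exp_le_exp.2 (neg_le_neg (le_trans (le_of_eq ?_) h2))
      push_cast
      linear_combination (-4 * ((N : ℝ) + 1) ^ 2) * hμ
    have h4 := hS v hv.le
    simp only [B]
    nlinarith) (fun v hv h1 h2 => by
    have h3 : 0 < g v := by linarith [hB v]
    have h4 : σ ≤ zd v x := not_lt.1 fun h => absurd (hout v (hv.trans hρ) h) (not_le.2 h3)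
    obtain ⟨G, h5, h6⟩ := hg v (hv.trans hρ) h3
    have h7 : ∀ a, -(1 / 2) * g v < B (v + st4 a) - B v := fun a => by
      have k1 := gs_le_one hμ0 x (v + st4 a)
      have k2 := gs_pos μ x v
      have k3 : -(S / 4) ≤ B (v + st4 a) - B v := by
        simp only [B]
        nlinarith
      linarith [hB v]
    have h8 : ∑ a, (B (v + st4 a) - B v) ≤ 0 := by
      have k1 := mul_nonneg hS0 (gs_sub hμ0 hμ1 (x := x) (v := v)
        (hμ ▸ mul_le_mul_of_nonneg_left (dist_ge h4) hμ0))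
      simp only [B, Fin.sum_univ_four] at k1 ⊢
      linarith
    have h9 := B1a1.four_zero (g := fun a => G a - (B (v + st4 a) - B v)) (fun a => by
      rcases h6 a with k | k
      · linarith [h2 a]
      · linarith [h7 a]) (by rw [Finset.sum_sub_distrib]; linarith) 0
    rcases h6 0 with k | k
    · linarith
    · linarith [h7 0])
  intro v hv
  have h1 := key v (hv.trans (Nat.le_mul_of_pos_left _ (by omega)))
  have h2 : zd v x ≤ (N + 1) * σ := by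
    have h3 := B1a1.zd_add_le v (-x)
    have h4 : zd (v + -x) 0 = zd v x := by simp [zd, sub_eq_add_neg]
    have h5 : zd (-x) 0 = zd x 0 := by simp [zd]
    rw [h4, h5] at h3
    nlinarith
  have h3 := mul_le_mul_of_nonneg_left (dist_le h2) hμ0
  have h4 : Real.exp (-(4 * ((N : ℝ) + 1) ^ 2)) ≤ gs μ x v := by
    refine Real.exp_le_exp.2 (neg_le_neg (h3.trans (le_of_eq ?_)))
    push_cast
    linear_combination (2 * ((N : ℝ) + 1) ^ 2) * hμ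
  rw [th, ← he]
  simp only [B] at h1
  nlinarith

/-- The iteration. -/
theorem iter {N ρ : ℕ} {g : ℤ × ℤ → ℝ} {S : ℝ} (hg : Sub ρ g) (hS0 : 0 ≤ S)
    (hout : ∀ s, N * (s + 1) ≤ ρ → ∃ x, zd x 0 ≤ N * (s + 1) ∧
      ∀ v, zd v 0 + 1 ≤ ρ → zd v x ≤ s → g v ≤ 0)
    (hS : ∀ v, zd v 0 ≤ ρ → g v ≤ S) (k : ℕ) : ∀ σ, 2 ≤ σ → (3 * N + 2) ^ k * σ ≤ ρ →
      ∀ v, zd v 0 ≤ σ → g v ≤ th N ^ k * S := by
  induction k with
  | zero => exact fun σ _ h v hv => by simpa using hS v (hv.trans (by simpa using h))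
  | succ k ih =>
    intro σ hσ h
    have h1 : (3 * N + 2) * σ ≤ ρ :=
      le_trans (Nat.mul_le_mul_right _ (Nat.le_self_pow (by omega) _)) h
    obtain ⟨s, rfl⟩ : ∃ s, σ = s + 1 := ⟨σ - 1, by omega⟩
    obtain ⟨x, hx, hx'⟩ := hout s (le_trans (Nat.mul_le_mul_right _ (by omega)) h1)
    rw [pow_succ', mul_assoc]
    exact step hg hσ h1 (mul_nonneg (pow_nonneg (th_pos N).le k) hS0) hx
      (fun v hv hv' => hx' v hv (by omega))
      (ih _ (hσ.trans (Nat.le_mul_of_pos_left _ (by omega))) (by rwa [← mul_assoc, ← pow_succ]))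

theorem exists_exp {θ K : ℝ} (h0 : 0 < θ) (h1 : θ < 1) (hK : 1 < K) : ∃ β : ℝ, 0 < β ∧
    β ≤ 1 / 2 ∧ ∀ (k : ℕ) (t : ℝ), K⁻¹ ^ k ≤ t → θ ^ k ≤ t ^ β := by
  have h2 := Real.log_pos hK
  have h3 := Real.log_neg h0 h1
  have h4 : 0 < min (1 / 2) (-Real.log θ / Real.log K) :=
    lt_min (by norm_num) (div_pos (by linarith) h2)
  refine ⟨_, h4, min_le_left _ _, fun k t ht => ?_⟩
  have h5 : (0 : ℝ) < K⁻¹ := inv_pos.2 (by linarith)
  refine le_trans ?_ (Real.rpow_le_rpow (by positivity) ht h4.le)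
  rw [← Real.rpow_pow_comm h5.le]
  refine pow_le_pow_left₀ h0.le ?_ k
  rw [Real.rpow_def_of_pos h5, Real.log_inv, ← Real.log_le_iff_le_exp h0]
  have h6 := (le_div_iff₀ h2).1 (min_le_right (1 / 2) (-Real.log θ / Real.log K))
  linarith

/-- The decay of one function. -/
theorem decay (N : ℕ) : ∃ C β : ℝ, 1 ≤ C ∧ 0 < β ∧ β ≤ 1 / 2 ∧ ∀ (ρ : ℕ) (g : ℤ × ℤ → ℝ) (S : ℝ),
    Sub ρ g → 0 ≤ S → (∀ s, N * (s + 1) ≤ ρ → ∃ x, zd x 0 ≤ N * (s + 1) ∧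
      ∀ v, zd v 0 + 1 ≤ ρ → zd v x ≤ s → g v ≤ 0) → (∀ v, zd v 0 ≤ ρ → g v ≤ S) →
    ∀ s : ℕ, 1 ≤ s → ∀ v, zd v 0 ≤ s → s ≤ ρ → g v ≤ C * S * ((s : ℝ) / ρ) ^ β := by
  have t0 := th_pos N
  have t1 := th_lt N
  have hK : (2 : ℝ) ≤ ((3 * N + 2 : ℕ) : ℝ) := by exact_mod_cast (by omega : 2 ≤ 3 * N + 2)
  obtain ⟨β, b0, b1, hβ⟩ := exists_exp t0 t1 (show (1 : ℝ) < ((3 * N + 2 : ℕ) : ℝ) by linarith)
  refine ⟨(th N ^ 2)⁻¹, β, (one_le_inv₀ (by positivity)).2 (pow_le_one₀ t0.le t1.le), b0, b1,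
    fun ρ g S hg hS0 hout hS s hs v hv hsρ => ?_⟩
  have hex : ∃ k, ρ < (3 * N + 2) ^ (k + 1) * (2 * s) :=
    ⟨ρ, lt_of_lt_of_le ((Nat.lt_succ_self ρ).trans (Nat.lt_pow_self (by omega)))
      (Nat.le_mul_of_pos_right _ (by omega))⟩
  obtain ⟨k, h1, h2⟩ : ∃ k, ρ < (3 * N + 2) ^ (k + 1) * (2 * s) ∧ g v ≤ th N ^ k * S := by
    refine ⟨Nat.find hex, Nat.find_spec hex, ?_⟩
    rcases Nat.eq_zero_or_eq_succ_pred (Nat.find hex) with h | h
    · rw [h, pow_zero, one_mul]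
      exact hS v (hv.trans hsρ)
    · have h3 := Nat.find_min hex (m := (Nat.find hex).pred) (by omega)
      rw [h]
      exact iter hg hS0 hout hS _ (2 * s) (by omega) (not_lt.1 h3) v (by omega)
  have hρ : (0 : ℝ) < ρ := by exact_mod_cast (by omega : 0 < ρ)
  have h3 : (((3 * N + 2 : ℕ) : ℝ))⁻¹ ^ (k + 2) ≤ (s : ℝ) / ρ := by
    have h4 : (ρ : ℝ) ≤ ((3 * N + 2 : ℕ) : ℝ) ^ (k + 1) * (2 * s) := by exact_mod_cast h1.le
    rw [inv_pow, inv_eq_one_div, div_le_div_iff₀ (by positivity) hρ, one_mul, pow_succ _ (k + 1)]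
    have h5 : (0 : ℝ) ≤ ((3 * N + 2 : ℕ) : ℝ) ^ (k + 1) * s := by positivity
    nlinarith
  have h4 := mul_le_mul_of_nonneg_left (hβ _ _ h3)
    (show 0 ≤ (th N ^ 2)⁻¹ * S by positivity)
  refine h2.trans (le_trans (le_of_eq ?_) h4)
  field_simp
  ring

end An1

open An1 PairDecay in
/-- Hölder decay of a pair at a thick outer part. -/
theorem holS : HolS := by
  intro N
  obtain ⟨C, β, hC, b0, b1, H⟩ := decay N
  refine ⟨C, β, hC, b0, b1, fun ρ u w pr out h S hout hS s hs v hv hsρ => ?_⟩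
  have hS0 : 0 ≤ S := (abs_nonneg _).trans (hS 0 (by simp [zd])).1
  have h0 : ∀ y a, 0 < u y → ¬ pr y a → GG u pr y a ≤ -(1 / 2) * u y := fun y a hp ha => by
    rw [GG, if_neg ha]
    nlinarith [tc_ge]
  have h1 := H ρ u S (fun y hy hp => ⟨GG u pr y, h.sub y hy, fun a => by
      by_cases ha : pr y a
      · exact Or.inl (by rw [GG, if_pos ha])
      · exact Or.inr (h0 y a hp ha)⟩) hS0
    (fun t ht => (hout t ht).imp fun x hx => ⟨hx.1, fun y hy hy' => not_lt.1 fun hp => by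
      have h4 := Finset.sum_le_sum fun a (_ : a ∈ univ) => h0 y a hp ((hx.2 y hy').2 a)
      have h5 := h.sub y hy
      simp only [Fin.sum_univ_four] at h4 h5
      linarith⟩) (fun y hy => (le_abs_self _).trans (hS y hy).1) s hs v hv hsρ
  have h2 := H ρ (fun y => -w y) S (fun y hy hp => by
      have h3 : ¬ out y := fun h4 => by
        have h5 := h.zero y (by omega) h4
        simp only [h5, neg_zero] at hp
        exact lt_irrefl _ hp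
      refine ⟨fun a => -w (y + st4 a) - -w y, ?_, fun a => Or.inl le_rfl⟩
      have h5 := h.sup y hy h3
      simp only [Fin.sum_univ_four] at h5 ⊢
      linarith) hS0
    (fun t ht => (hout t ht).imp fun x hx => ⟨hx.1, fun y hy hy' => by
      rw [h.zero y (by omega) (hx.2 y hy').1, neg_zero]⟩)
    (fun y hy => (neg_le_abs _).trans (hS y hy).2) s hs v hv hsρ
  have h3 : w v ≤ u v := by
    have h4 := h.le v 0 (by omega)
    rwa [B1a1.sub_cn_zero] at h4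
  exact ⟨abs_le.2 ⟨by linarith, h1⟩, abs_le.2 ⟨by linarith, by linarith⟩⟩

end Vale.Agent.P144Z
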